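import Vale.Agent.P092ST.Blocks

/-!
P092 (helper72), block B3, FIX: gauge fixing.
-/

set_option linter.all false

open scoped InnerProductSpace ENNReal
open MeasureTheory Filter Topology

namespace Vale.Agent.P092ST

section op

variable {𝒦 : Type} [NormedAddCommGroup 𝒦] [InnerProductSpace ℂ 𝒦] [CompleteSpace 𝒦]
  {X Z W R : 𝒦 →L[ℂ] 𝒦}

theorem RatD.conj (h : RatD X Z W R) {S T : 𝒦 →L[ℂ] 𝒦} (hS : star S * S = 1)
    (hW : W * (T * star T) = W) (hZ : Z * (T * star T) = Z) :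
    S * W * T * (1 + star (S * X * T) * (S * X * T)) =
      (2 : ℂ) • (S * X * T) + S * Z * T * (1 - star (S * X * T) * (S * X * T)) := by
  have e0 : star (S * X * T) * (S * X * T) = star T * (star X * X) * T := by
    rw [star_mul, star_mul]
    calc _ = star T * (star X * (star S * S) * X) * T := by noncomm_ring
      _ = _ := by rw [hS, mul_one]
  have e := h.eq
  rw [two_smul] at e
  rw [e0, two_smul]
  calc _ = S * (W + W * (T * star T) * (star X * X)) * T := by noncomm_ring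
    _ = S * (W * (1 + star X * X)) * T := by rw [hW]; noncomm_ring
    _ = S * (X + X + (Z - Z * (T * star T) * (star X * X))) * T := by rw [e, hZ]; noncomm_ring
    _ = _ := by noncomm_ring

theorem norm_kk_pow (hX : ‖X‖ ≤ 1) : ∀ N : ℕ, ‖kk X ^ N‖ ≤ 3⁻¹ ^ N
  | 0 => by rw [pow_zero, pow_zero]; exact Amb.norm_one_le
  | N + 1 => by
    rw [pow_succ, pow_succ]
    exact (norm_mul_le _ _).trans
      (mul_le_mul (norm_kk_pow hX N) (norm_kk hX) (norm_nonneg _) (by positivity))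

theorem trunc_norm {U k : 𝒦 →L[ℂ] 𝒦} {d : ℝ} (hU : ‖U‖ ≤ 1) (hk : ‖k‖ ≤ d) (hd : d ≤ 1) :
    ‖((1 - d : ℝ) : ℂ) • (U * (1 - k))‖ ≤ 1 ∧ ‖((1 - d : ℝ) : ℂ) • (U * (1 - k)) - U‖ ≤ 3 * d := by
  have d0 : 0 ≤ d := (norm_nonneg _).trans hk
  have h1 : ‖U * k‖ ≤ d := (norm_mul_le _ _).trans
    ((mul_le_of_le_one_left (norm_nonneg _) hU).trans hk)
  have h2 : ‖U * (1 - k)‖ ≤ 1 + d := by
    rw [mul_sub, mul_one]; exact (norm_sub_le _ _).trans (add_le_add hU h1)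
  constructor
  · rw [norm_smul, Complex.norm_real, Real.norm_of_nonneg (sub_nonneg.2 hd)]
    nlinarith [mul_le_mul_of_nonneg_left h2 (sub_nonneg.2 hd)]
  · have e : ((1 - d : ℝ) : ℂ) • (U * (1 - k)) - U = -(U * k) - (d : ℂ) • (U * (1 - k)) := by
      rw [mul_sub, mul_one]; push_cast; module
    rw [e]
    refine (norm_sub_le _ _).trans ?_
    rw [norm_neg, norm_smul, Complex.norm_real, Real.norm_of_nonneg d0]
    nlinarith [mul_le_mul_of_nonneg_left h2 d0]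

end op

namespace Amb

variable {G Γ 𝒦 : Type} [Group G] [TopologicalSpace G] [Group Γ] [NormedAddCommGroup 𝒦]
  [InnerProductSpace ℂ 𝒦] [CompleteSpace 𝒦] {A : Amb G Γ 𝒦} {f U U' ω ω' ω1 x : 𝒦 →L[ℂ] 𝒦}
  {b : G} {E d a : ℝ}

theorem Room.mul_e (h : A.Room f) (n : ℕ) : A.Room (f * A.e n) :=
  ⟨h.deg.mul1 (deg_e n), by
    rw [star_mul, mul_assoc, ← mul_assoc (star f), h.iso, one_mul, A.e_iso], fun g => by
    rw [← mul_assoc, h.sh, mul_assoc, A.e_SH, mul_assoc], fun X => by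
    rw [mul_assoc, A.Pj_e, ← mul_assoc, h.pj, mul_assoc]⟩

theorem Room.nrm (h : A.Room f) : ‖f‖ ≤ 1 := norm_le_of_star (by rw [h.iso]; exact norm_one_le)

theorem Room.orth (h : A.Room f) {n m : ℕ} (hn : n ≠ m) :
    star (f * A.e n) * (f * A.e m) = 0 := by
  rw [star_mul, mul_assoc, ← mul_assoc (star f), h.iso, one_mul, A.e_orth n m hn]

theorem Room.sh' (h : A.Room f) (g : G) : A.SH g * star f = star f * A.SH g := by
  have := congrArg star (h.sh g⁻¹)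
  rw [star_mul, star_mul, A.SH_star, inv_inv] at this
  exact this.symm

theorem one_l_fix (h1 : A.Iso ω1) (dU : A.Deg 1 U) (hU : star U * U = 1) (nU' : ‖U'‖ ≤ 1)
    (hd : ‖U' - U‖ ≤ 3 * d) (dω : A.Deg 1 ω') (hx : A.One ω' x b E)
    (hc : A.n2 (ω1 - U * ω') ≤ 2 * E) :
    A.n2 (U' * x * star U' * ω1 - ω1 * A.V b) ≤ 5 * E + 6 * d := by
  have nU : ‖U‖ ≤ 1 := norm_le_of_star (by rw [hU]; exact norm_one_le)
  have e : U' * x * star U' * ω1 - ω1 * A.V b =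
      (U' * x * (star (U' - U) * ω1) + (U' - U) * (x * star U * ω1)) +
      (U * x * star U * (ω1 - U * ω') + U * (x * ω' - ω' * A.V b) + (U * ω' - ω1) * A.V b) := by
    rw [star_sub]
    calc _ = U' * x * star U' * ω1 - ω1 * A.V b + (U * x * ω' - U * x * (star U * U) * ω') := by
          rw [hU, mul_one, sub_self, add_zero]
      _ = _ := by noncomm_ring
  have nUs : ‖star U‖ ≤ 1 := by rwa [norm_star]
  have a1 := (n2_mul1 (A := A) (norm_mul_le1 nU' hx.nrm) (star (U' - U) * ω1)).trans (n2_mul _ _)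
  rw [h1.n2_eq, norm_star, mul_one] at a1
  have a2 := (n2_mul (A := A) (U' - U) (x * star U * ω1)).trans (mul_le_of_le_one_right
    (norm_nonneg _) ((n2_mul1 (norm_mul_le1 hx.nrm nUs) ω1).trans h1.n2_eq.le))
  have a3 := n2_mul1 (A := A) (norm_mul_le1 (norm_mul_le1 nU hx.nrm) nUs) (ω1 - U * ω')
  have a4 := (n2_mul1 (A := A) nU _).trans hx.l
  have a5 := n2_V_le ((dU.mul1 dω).sub h1.deg) b
  rw [n2_rev (U * ω')] at a5
  rw [e]
  refine (n2_add _ _).trans (add_le_add (n2_add _ _) ((n2_add _ _).trans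
    (add_le_add (n2_add _ _) le_rfl))) |>.trans ?_
  linarith

theorem two_fix {ωh : 𝒦 →L[ℂ] 𝒦} (h1 : A.Iso ω1) (hh : A.Iso ωh) (dU : A.Deg 1 U)
    (dU' : A.Deg 1 U') (nU : ‖U‖ ≤ 1) (nU' : ‖U'‖ ≤ 1) (hd : ‖U' - U‖ ≤ 3 * d)
    (hx : A.Two ωh x b a) (ha : a ≤ 1) {c : ℝ} (hc : A.n2 (U * ωh - ω1) ≤ c) :
    A.Two ω1 (U' * x * star U') b (a + 2 * c + 12 * d) := by
  have nUs : ‖star U‖ ≤ 1 := by rwa [norm_star]
  have nUs' : ‖star U'‖ ≤ 1 := by rwa [norm_star]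
  have e : U' * x * star U' - A.ζ ω1 b =
      ((U' - U) * (x * star U') + U * (x * star (U' - U))) + U * ((x - A.ζ ωh b) * star U) +
      ((U * ωh - ω1) * (A.V b * star (U * ωh)) + ω1 * A.V b * star (U * ωh - ω1)) := by
    rw [ζ, ζ, star_sub, star_sub, star_mul]; noncomm_ring
  have sx := hx.HS hh
  have nx : A.hs x ≤ 2 := (hx.hs_le hh).trans (by linarith)
  have dΔ := dU'.sub dU
  have d0 : 0 ≤ 3 * d := (norm_nonneg _).trans hd
  have dx := hx.deg.sub (hh.deg_ζ b)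
  have dδ := (dU.mul1 hh.deg).sub h1.deg
  have cδ := col_sub (col_mul hh.col U) h1.col
  have sδ := hs_col cδ
  have d2 := (deg_V (A := A) b).mul1 (dU.mul1 hh.deg).star1
  have s1 := (sx.mul_right hx.deg dU'.star1).mul (U' - U)
  have s2 := (sx.mul_right hx.deg dΔ.star1).mul U
  have s3 := (hx.hs.mul_right dx dU.star1).mul U
  have s4 := sδ.mul_right dδ d2
  have s5 := (sδ.star dδ).mul (ω1 * A.V b)
  have n1 := ((sx.mul_right hx.deg dU'.star1).hs_mul (U' - U)).trans (mul_le_mul hd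
    ((sx.hs_mul_right1 hx.deg dU'.star1 nUs').trans nx) (hs_nonneg _) d0)
  have n2 := ((sx.mul_right hx.deg dΔ.star1).hs_mul1 nU).trans
    ((sx.hs_mul_right hx.deg dΔ.star1).trans (mul_le_mul (by rwa [norm_star]) nx (hs_nonneg _) d0))
  have n3 := ((hx.hs.mul_right dx dU.star1).hs_mul1 nU).trans
    ((hx.hs.hs_mul_right1 dx dU.star1 nUs).trans hx.le)
  have n4 := (sδ.hs_mul_right1 dδ d2 (norm_mul_le1 (norm_V b)
    (by rw [norm_star]; exact norm_mul_le1 nU hh.nrm))).trans ((hs_eq_n2 cδ).trans_le hc)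
  have n5 := ((sδ.star dδ).hs_mul1 (norm_mul_le1 h1.nrm (norm_V (A := A) b))).trans
    (((sδ.hs_star dδ).trans (hs_eq_n2 cδ)).trans_le hc)
  refine ⟨(dU'.one_mul hx.deg).mul1 dU'.star1, norm_mul_le1 (norm_mul_le1 nU' hx.nrm) nUs',
    e ▸ ((s1.add s2).add s3).add (s4.add s5), ?_⟩
  have t1 := ((s1.add s2).add s3).hs_add (s4.add s5)
  have t2 := (s1.add s2).hs_add s3
  have t3 := s1.hs_add s2
  have t4 := s4.hs_add s5
  rw [e]
  linarith

/-- **FIX** -/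
theorem fix (A : Amb G Γ 𝒦) : A.Fix := by
  intro ω f ωh ω' x ι b a E B N hω hf ho H ha hB
  set Q : 𝒦 →L[ℂ] 𝒦 := 1 - f * star f with hQ
  have sQ : star Q = Q := by rw [hQ, star_sub, star_one, star_mul, star_star]
  have fQ : star f * Q = 0 := by rw [hQ, mul_sub, mul_one, ← mul_assoc, hf.iso, one_mul, sub_self]
  have nQ : ‖Q‖ ≤ 1 := norm_proj sQ (by
    nth_rewrite 1 [hQ]
    rw [sub_mul, one_mul, mul_assoc, fQ, mul_zero, sub_zero])
  have Qω : Q * ω = ω := by rw [hQ, sub_mul, one_mul, mul_assoc, ho, mul_zero, sub_zero]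
  have dQ : A.Deg 1 Q := deg_id.sub (hf.deg.mul1 hf.deg.star1)
  have bf := band_of_comm hf.pj
  have bQ : A.Band 0 Q := band_id.sub (bf.mul0 bf.star)
  have QS : ∀ g, A.SH g * Q = Q * A.SH g := fun g => by
    rw [hQ, mul_sub, sub_mul, mul_one, one_mul, ← mul_assoc, hf.sh, mul_assoc, hf.sh', mul_assoc]
  have nι : ‖star ι‖ ≤ 1 := by rw [norm_star]; exact H.inrm
  set X := Q * star ι with hX
  have nX : ‖X‖ ≤ 1 := norm_mul_le1 nQ nι
  have dX : A.Deg 1 X := dQ.mul1 H.ideg.star1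
  have bX : A.Band B X := bQ.zero_mul H.iband.star
  have eX : ∀ n, star (f * A.e n) * X = 0 := fun n => by
    rw [hX, star_mul, mul_assoc, ← mul_assoc (star f), fQ, zero_mul, mul_zero]
  have r0 := hf.mul_e 0
  have r1 := hf.mul_e 1
  obtain ⟨U, R, hU⟩ := exists_rat nX (f * A.e 0)
  have iU : star U * U = 1 := hU.iso (eX 0) r0.iso (mul_one _)
  have nU : ‖U‖ ≤ 1 := norm_le_of_star (by rw [iU]; exact norm_one_le)
  have dU := rat_deg hU dX r0.deg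
  have eU : ∀ n, n ≠ 0 → star (f * A.e n) * U = 0 := fun n hn => hU.room (eX n) (hf.orth hn)
  have nX2 : ‖U * ω'‖ ≤ 1 := norm_mul_le1 nU H.nrm
  have dX2 := dU.mul1 H.deg
  have cX2 := col_mul H.col U
  have nZ : ‖f * A.e 1 * ω‖ ≤ 1 := norm_mul_le1 r1.nrm hω.nrm
  have dZ := r1.deg.mul1 hω.deg
  have cZ := col_mul hω.col (f * A.e 1)
  obtain ⟨ω1, R1, h1⟩ := exists_rat nX2 (f * A.e 1 * ω)
  have i1 : A.Iso ω1 := ⟨rat_deg h1 dX2 dZ, h1.iso
    (by rw [star_mul, mul_assoc, ← mul_assoc (star (f * A.e 1)), eU 1 one_ne_zero, zero_mul,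
      mul_zero])
    (by rw [star_mul, mul_assoc, ← mul_assoc (star (f * A.e 1)), r1.iso, one_mul, hω.iso]) cX2⟩
  have c1 : A.n2 (ω1 - U * ω') ≤ 2 * E := by
    have h := rat_close (A := A) h1 nX2 nZ (A.V 1)
    rw [i1.col, cX2, mul_assoc, cX2, star_mul, mul_assoc, ← mul_assoc (star U), iU, one_mul,
      n2_rev (A.V 1)] at h
    linarith [H.fine]
  have c2 : A.n2 (X * ω' - ω) ≤ 2 * a := by
    have e : X * ω' - ω = Q * (star ι * (ω' - ωh) + (star ι * ωh - ω)) := by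
      nth_rewrite 1 [← Qω]
      rw [hX]; noncomm_ring
    rw [e]
    linarith [n2_mul1 (A := A) nQ (star ι * (ω' - ωh) + (star ι * ωh - ω)),
      n2_add (A := A) (star ι * (ω' - ωh)) (star ι * ωh - ω), n2_mul1 (A := A) nι (ω' - ωh),
      H.cl, H.ir]
  have c3 : A.n2 (U * ω' - X * ω') ≤ 8 * a := by
    have h := rat_close (A := A) hU nX r0.nrm ω'
    have e0 : star X * ω = ι * ω := by rw [hX, star_mul, star_star, sQ, mul_assoc, Qω]
    have e : star X * X * ω' - ω' = star X * (X * ω' - ω) + ((ι * ω - ωh) - (ω' - ωh)) := by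
      rw [← e0]; noncomm_ring
    rw [n2_rev ω', e] at h
    linarith [n2_add (A := A) (star X * (X * ω' - ω)) ((ι * ω - ωh) - (ω' - ωh)),
      n2_mul1 (A := A) (a := star X) (by rwa [norm_star]) (X * ω' - ω),
      n2_sub (A := A) (ι * ω - ωh) (ω' - ωh), H.cl, H.il]
  obtain ⟨nU', hd⟩ := trunc_norm nU (norm_kk_pow nX N) (pow_le_one₀ (by norm_num) (by norm_num))
  have dU' : A.Deg 1 (((1 - 3⁻¹ ^ N : ℝ) : ℂ) • (U * (1 - kk X ^ N))) :=
    (dU.mul1 (deg_id.sub ((dX.kk.pow N).cast (one_pow N)))).smul _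
  have bU' : A.Band ((2 * N + 2) * B) (((1 - 3⁻¹ ^ N : ℝ) : ℂ) • (U * (1 - kk X ^ N))) :=
    (rat_band hU bX (band_of_comm r0.pj) hB N).smul _
  generalize ((1 - 3⁻¹ ^ N : ℝ) : ℂ) • (U * (1 - kk X ^ N)) = U' at nU' hd dU' bU'
  have c4 : A.n2 (U * ωh - ω1) ≤ a + 2 * E := by
    have h := n2_tri (A := A) (U * ωh) (U * ω') ω1
    rw [← mul_sub, n2_rev (U * ω')] at h
    have h2 := n2_mul1 (A := A) nU (ωh - ω')
    rw [n2_rev ωh] at h2
    linarith [H.cl]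
  have t2 := two_fix i1 H.iso dU dU' nU nU' hd H.two ha c4
  refine ⟨ω1, f * A.e 2, U' * x * star U', i1, hf.mul_e 2, h1.room ?_ ?_, ?_,
    t2.mono (le_of_eq (by ring)), ⟨t2.deg, t2.nrm, one_l_fix i1 dU iU nU' hd H.deg H.one c1, ?_⟩,
    ((bU'.mul H.band).mul bU'.star).mono (le_of_eq (by ring)), fun w t k1 k2 k3 => ?_⟩
  · rw [← mul_assoc, eU 2 two_ne_zero, zero_mul]
  · rw [← mul_assoc, hf.orth (by norm_num), zero_mul]
  · linarith [n2_tri (A := A) ω1 (U * ω') ω, n2_tri (A := A) (U * ω') (X * ω') ω]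
  · rw [star_mul, star_mul, star_star, ← mul_assoc]
    exact one_l_fix i1 dU iU nU' hd H.deg H.one.star c1
  have hS : star (A.SH w) * A.SH w = 1 := by rw [A.SH_star, SH_inv_mul]
  have hT : A.SH w⁻¹ * star (A.SH w⁻¹) = 1 := by rw [A.SH_star, SH_mul_inv]
  have hV : A.V w⁻¹ * star (A.V w⁻¹) = A.V 1 := by rw [A.V_star, V_mul_inv]
  have nS : ∀ y : 𝒦 →L[ℂ] 𝒦, ‖y‖ ≤ 1 → ‖A.SH w * y * A.SH w⁻¹‖ ≤ 1 := fun y hy =>
    norm_mul_le1 (norm_mul_le1 (norm_SH w) hy) (norm_SH _)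
  have nV : ∀ y : 𝒦 →L[ℂ] 𝒦, ‖y‖ ≤ 1 → ‖A.SH w * y * A.V w⁻¹‖ ≤ 1 := fun y hy =>
    norm_mul_le1 (norm_mul_le1 (norm_SH w) hy) (norm_V _)
  have dV : ∀ y, A.Deg 1 y → A.Deg 1 (A.SH w * y * A.V w⁻¹) := fun y hy =>
    (((deg_SH w).mul1 hy).mul (deg_V _)).cast (mul_inv_cancel w)
  have df1 : ∀ y, A.Deg 1 y → y * A.V 1 = y → A.n2 (A.SH w * y * A.V w⁻¹ - y) ≤ A.df y w :=
    fun y hy cy => by
      have h := n2_V_le (((deg_SH w).mul1 hy).sub (hy.one_mul (deg_V w))) w⁻¹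
      rwa [sub_mul, mul_assoc y, V_mul_inv, cy] at h
  have p1 : ‖A.SH w * U * A.SH w⁻¹ - U‖ ≤ 6 * t := by
    have h := hU.conj hS (by rw [hT, mul_one]) (by rw [hT, mul_one])
    rw [r0.sh, mul_assoc (f * A.e 0) (A.SH w), SH_mul_inv, mul_one] at h
    have h2 := rat_pert_norm hU h nX (nS _ nX) r0.nrm (nS _ nU)
    have e : A.SH w * X * A.SH w⁻¹ - X = Q * star (A.SH w * ι * A.SH w⁻¹ - ι) := by
      rw [hX, ← mul_assoc, QS, star_sub, star_mul, star_mul, A.SH_star, A.SH_star, inv_inv]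
      noncomm_ring
    have h3 := norm_mul_le Q (star (A.SH w * ι * A.SH w⁻¹ - ι))
    rw [norm_star, ← e] at h3
    have h4 := mul_le_of_le_one_left (norm_nonneg (A.SH w * ι * A.SH w⁻¹ - ι)) nQ
    linarith
  have p2 : A.n2 (A.SH w * (U * ω') * A.V w⁻¹ - U * ω') ≤ 7 * t := by
    have e : A.SH w * (U * ω') * A.V w⁻¹ - U * ω' =
        (A.SH w * U * A.SH w⁻¹ - U) * (A.SH w * ω' * A.V w⁻¹) +
          U * (A.SH w * ω' * A.V w⁻¹ - ω') := by
      calc _ = A.SH w * U * (A.SH w⁻¹ * A.SH w) * ω' * A.V w⁻¹ - U * ω' := by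
            rw [SH_inv_mul]; noncomm_ring
        _ = _ := by noncomm_ring
    have h2 := (n2_mul (A := A) (A.SH w * U * A.SH w⁻¹ - U) _).trans (mul_le_of_le_one_right
      (norm_nonneg _) ((n2_le_norm _).trans (nV _ H.nrm)))
    have h3 := (n2_mul1 nU _).trans (df1 _ H.deg H.col)
    rw [e]
    linarith [n2_add (A := A) ((A.SH w * U * A.SH w⁻¹ - U) * (A.SH w * ω' * A.V w⁻¹))
      (U * (A.SH w * ω' * A.V w⁻¹ - ω'))]
  have p3 : A.n2 (A.SH w * (f * A.e 1 * ω) * A.V w⁻¹ - f * A.e 1 * ω) ≤ t := by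
    have e : A.SH w * (f * A.e 1 * ω) * A.V w⁻¹ - f * A.e 1 * ω =
        f * A.e 1 * (A.SH w * ω * A.V w⁻¹ - ω) := by
      rw [← mul_assoc (A.SH w), r1.sh]; noncomm_ring
    rw [e]
    exact (n2_mul1 r1.nrm _).trans ((df1 _ hω.deg hω.col).trans k3)
  have p4 := rat_pert_n2 h1 (h1.conj hS (by rw [hV, i1.col]) (by rw [hV, cZ])) nX2 (nV _ nX2) nZ
    (nV _ i1.nrm) dX2 (dV _ dX2) dZ (dV _ dZ) (dV _ i1.deg) cX2 (col_p _ _) cZ (col_p _ _)
  have p5 := n2_V_le ((dV _ i1.deg).sub i1.deg) w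
  rw [sub_mul, mul_assoc _ (A.V w⁻¹), V_inv_mul, col_mul i1.col] at p5
  rw [df]
  linarith

end Amb

end Vale.Agent.P092ST
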